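import Vale.Agent.Lib.P054.PinnedMain

/-!
# P054: pinned distinct distances for dense subsets of the integer grid, `d ≥ 4`

Every set `P` of at least two points of the grid `{1, …, t}^d`, `d ≥ 4`, with `|P| ≥ δ t^d`
contains a point `p` whose distances to the other points of `P` take at least
`δ^3 / (11000 d^2) * t^2 ≥ δ^3 / (11000 d^2) * |P|^(2/d)` distinct values.
-/

namespace Vale.Agent.Results.P054.PinnedDenseGrid

open Finset

theorem result (d : ℕ) (hd : 4 ≤ d) (δ : ℝ) (hδ0 : 0 < δ) (hδ1 : δ ≤ 1) (t : ℕ)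
    (P : Finset (EuclideanSpace ℝ (Fin d)))
    (hgrid : ∀ p ∈ P, ∀ i, ∃ z : ℤ, 1 ≤ z ∧ z ≤ t ∧ p i = z)
    (hdense : δ * (t : ℝ) ^ d ≤ P.card) (h2 : 2 ≤ P.card) :
    ∃ p ∈ P,
      δ ^ 3 / (11000 * (d : ℝ) ^ 2) * (t : ℝ) ^ 2
        ≤ (((P.erase p).image (fun q => dist q p)).card : ℝ) ∧
      δ ^ 3 / (11000 * (d : ℝ) ^ 2) * (P.card : ℝ) ^ ((2 : ℝ) / d)
        ≤ (((P.erase p).image (fun q => dist q p)).card : ℝ) :=
  Vale.Agent.Lib.P054.pinned_points hd δ hδ0 hδ1 t P hgrid hdense h2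

end Vale.Agent.Results.P054.PinnedDenseGrid
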